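import Vale.Agent.P011.D4T.H547.Cent
import Vale.Agent.P011.D4T.H547.Cent3

/-!
The similitudes which commute with the standard involution, with `J`, and with the involution
`I x = star (ι x)`.
-/

open NumberField

namespace Vale.Agent.P011.D4I.H547

open Vale.Agent.P011.MPQ Vale.Agent.P011.D4 Vale.Agent.P011.D4.Oct Vale.Agent.P011.E6
open Vale.Agent.P011.D4T Vale.Agent.P011.D4T.H547

section sand

variable {F : Type} [Field F] {a b : Fˣ}

theorem sandwich2 (h2 : (2 : F) ≠ 0) {P Q P' Q' : Qt a b} (hP : nrd P ≠ 0) (hQ : nrd Q ≠ 0)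
    (h : ∀ w : Qt a b, P * w * Q = P' * w * Q') :
    ∃ c : F, c ≠ 0 ∧ P' = c • P ∧ Q = c • Q' := by
  obtain ⟨c, hc, h3, h4⟩ := sandwich h2 (P := qi P * P') (R := Q' * qi Q) fun w => by
    calc qi P * P' * w * (Q' * qi Q) = qi P * (P' * w * Q') * qi Q := by simp only [mul_assoc]
      _ = (qi P * P) * w * (Q * qi Q) := by rw [← h]; simp only [mul_assoc]
      _ = w := by rw [qi_mul hP, mul_qi hQ, one_mul, mul_one]
  refine ⟨c, hc, ?_, ?_⟩
  · calc P' = P * (qi P * P') := by rw [← mul_assoc, mul_qi hP, one_mul]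
      _ = c • P := by rw [h3, mul_smul_comm, mul_one]
  · calc Q = c • (c⁻¹ • Q) := by rw [smul_smul, mul_inv_cancel₀ hc, one_smul]
      _ = c • ((Q' * qi Q) * Q) := by rw [h4, smul_mul_assoc, one_mul]
      _ = c • Q' := by rw [mul_assoc, qi_mul hQ, mul_one]

end sand

section main

variable {k E : Type} [Field k] [Field E] [Algebra k E] {ρ σ ι : E ≃ₐ[k] E} {a b c : kˣ}
  {α t κ : E}

/-- Normalisation of the first component. -/
theorem norm1 (h2 : (2 : E) ≠ 0) (hρ3 : ∀ x, ρ (ρ (ρ x)) = x)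
    (hcomm : ∀ x, σ (ρ x) = ρ (σ x)) (hρα : ρ α = α)
    (hιρ : ∀ x, ι (ρ x) = ρ (ρ (ι x))) (hι2 : ∀ x, ι (ι x) = x)
    (hισ : ∀ x, ι (σ x) = σ (ι x)) (hια : ι α = α) (hιt : ι t = ρ (ρ t))
    (hιne : ∃ y, σ y = y ∧ ι y ≠ y) (hmn : nrd (mq a b α t) ≠ 0)
    {A : Qt (up E a) (up E b) → Qt (up E a) (up E b)} {X : Qt (up E a) (up E b)} {n : E}
    (hX0 : nrd X ≠ 0) (hn0 : n ≠ 0)
    (hXm : X * mq a b α t = mq a b α t * qmap σ X)
    (hA : ∀ u, A u = n • (X * u * qmap ρ (qmap ρ (star X))))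
    (hI : ∀ u, A (qmap ι (star u)) = qmap ι (star (A u))) :
    ∃ d : E, d ≠ 0 ∧ σ d = d ∧ qmap ρ (qmap ι (d • X)) = d • X := by
  obtain ⟨m, hm⟩ : ∃ m, m = mq a b α t := ⟨_, rfl⟩
  rw [← hm] at hmn hXm
  have hιρρ : ∀ x, ι (ρ (ρ x)) = ρ (ι x) := by
    intro x
    rw [hιρ, hιρ, hρ3]
  have hRIm : qmap ρ (qmap ι m) = m := by
    have e1 : ρ (ι t) = t := by rw [hιt, hρ3]
    rw [hm]
    apply QuaternionAlgebra.ext
    · simp [re_mq, map_div₀, e1, map_ofNat]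
    · simp [imI_mq, map_div₀, e1, map_ofNat, hια, hρα]
    · simp [imJ_mq]
    · simp [imK_mq]
  have hRIS : ∀ x : Qt (up E a) (up E b), qmap ρ (qmap ι (qmap σ x)) =
      qmap σ (qmap ρ (qmap ι x)) := by
    intro x
    have h1 : ∀ x, ρ (ι (σ x)) = σ (ρ (ι x)) := fun x => by rw [hισ, ← hcomm]
    apply QuaternionAlgebra.ext
    · exact h1 _
    · exact h1 _
    · exact h1 _
    · exact h1 _
  have hRIRI : ∀ x : Qt (up E a) (up E b), qmap ρ (qmap ι (qmap ρ (qmap ι x))) = x := by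
    intro x
    have h1 : ∀ x, ρ (ι (ρ (ι x))) = x := fun x => by rw [hιρ, hι2, hρ3]
    apply QuaternionAlgebra.ext
    · exact h1 _
    · exact h1 _
    · exact h1 _
    · exact h1 _
  have hIRR : ∀ x : Qt (up E a) (up E b), qmap ι (qmap ρ (qmap ρ x)) = qmap ρ (qmap ι x) := by
    intro x
    apply QuaternionAlgebra.ext
    · exact hιρρ _
    · exact hιρρ _
    · exact hιρρ _
    · exact hιρρ _
  have hII : ∀ x : Qt (up E a) (up E b), qmap ι (qmap ι x) = x := by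
    intro x
    apply QuaternionAlgebra.ext
    · exact hι2 _
    · exact hι2 _
    · exact hι2 _
    · exact hι2 _
  -- comparison
  obtain ⟨s, hs0, hs1, -⟩ := sandwich2 h2 (P := X) (Q := n • qmap ρ (qmap ρ (star X)))
    (P' := qmap ρ (qmap ι X)) (Q' := ι n • qmap ι (star X)) hX0 (by
      rw [nrd_smul_q, nrd_qmap, nrd_qmap, nrd_star_q]
      exact mul_ne_zero (pow_ne_zero 2 hn0)
        ((map_ne_zero ρ).mpr ((map_ne_zero ρ).mpr hX0))) fun w => by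
      have h1 := hI (star (qmap ι w))
      rw [star_star, hII, hA, hA, star_smul_q, qmap_smul] at h1
      rw [mul_smul_comm, h1, mul_smul_comm]
      congr 1
      rw [star_mul, star_mul, star_star, qmap_mul, qmap_mul, hII, ← qmap_star, ← qmap_star,
        star_star, hIRR, mul_assoc]
  -- the scalar
  have hsσ : σ s = s := by
    have h1 := congrArg (fun x => qmap ρ (qmap ι x)) hXm
    simp only [qmap_mul, hRIm, hRIS, hs1, qmap_smul, smul_mul_assoc, mul_smul_comm] at h1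
    rw [← hXm] at h1
    exact (smul_cancel_q (by rw [nrd_mul]; exact mul_ne_zero hX0 hmn) h1).symm
  have hss : ρ (ι s) * s = 1 := by
    have h1 := hRIRI X
    rw [hs1, qmap_smul, qmap_smul, hs1, smul_smul] at h1
    have h3 : (ρ (ι s) * s) • X = (1 : E) • X := by rw [h1, one_smul]
    exact smul_cancel_q hX0 h3
  -- Hilbert 90
  have key : ∃ d : E, d ≠ 0 ∧ σ d = d ∧ ρ (ι d) * s = d := by
    by_cases h : s = -1
    · obtain ⟨y, hy1, hy2⟩ := hιne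
      refine ⟨ρ (ρ y) - ρ (ρ (ι y)), ?_, ?_, ?_⟩
      · intro h0
        exact hy2 (ρ.injective (ρ.injective (sub_eq_zero.mp h0))).symm
      · rw [map_sub, hcomm, hcomm, hy1, hcomm, hcomm, ← hισ, hy1]
      · rw [h, map_sub, map_sub, hιρρ, hιρρ, hι2]
        ring
    · refine ⟨1 + s, ?_, ?_, ?_⟩
      · intro h1
        exact h (by linear_combination h1)
      · rw [map_add, map_one, hsσ]
      · rw [map_add, map_add, map_one, map_one]
        linear_combination hss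
  obtain ⟨d, hd0, hd1, hd2⟩ := key
  refine ⟨d, hd0, hd1, ?_⟩
  rw [qmap_smul, qmap_smul, hs1, smul_smul, hd2]

/-- The shape of the two components. -/
theorem shapeAB (h2 : (2 : E) ≠ 0) (hρ3 : ∀ x, ρ (ρ (ρ x)) = x) (hσ2 : ∀ x, σ (σ x) = x)
    (hcomm : ∀ x, σ (ρ x) = ρ (σ x)) (hα : α * α = algebraMap k E a) (hρα : ρ α = α)
    (hσα : σ α = -α) (hσt : σ t = t) (ht : t * ρ t * ρ (ρ t) = 1)
    (hιρ : ∀ x, ι (ρ x) = ρ (ρ (ι x))) (hι2 : ∀ x, ι (ι x) = x)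
    (hισ : ∀ x, ι (σ x) = σ (ι x)) (hια : ι α = α) (hιt : ι t = ρ (ρ t))
    (hιne : ∃ y, σ y = y ∧ ι y ≠ y)
    (A : Qt (up E a) (up E b) ≃ₗ[E] Qt (up E a) (up E b))
    (B : Qt (up E a) (up E b) →ₗ[E] Qt (up E a) (up E b))
    (hA : ∀ u v, A (u * v) = κ •
      (qmap ρ (star (A (star (qmap ρ (qmap ρ u))))) *
      qmap ρ (qmap ρ (star (A (star (qmap ρ v)))))))
    (hJ : ∀ y, A (mq a b α t * qmap σ y * mq a b α (t * ρ t)) =
      mq a b α t * qmap σ (A y) * mq a b α (t * ρ t))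
    (hB : ∀ u w, B (qmap ρ (qmap ρ w) * qmap ρ (star u)) =
      κ • (qmap ρ (qmap ρ (B w)) * qmap ρ (star (A u))))
    (hJ2 : ∀ y, B (qmap σ y * (mq a b α t * star (mq a b α (t * ρ t)))) =
      qmap σ (B y) * (mq a b α t * star (mq a b α (t * ρ t))))
    (hC : A 1 = κ • (star (qmap ρ (qmap ρ (B 1))) * qmap ρ (B 1)))
    (hIA : ∀ u, A (qmap ι (star u)) = qmap ι (star (A u)))
    (hIB : ∀ w, B (qmap ι w) = qmap ι (B w)) :
    ∃ (X Y : Qt (up E a) (up E b)) (n : E), nrd X ≠ 0 ∧ n ≠ 0 ∧ σ n = n ∧ ι n = n ∧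
      mq a b α t * qmap σ X = X * mq a b α t ∧ qmap ρ (qmap ι X) = X ∧
      qmap ρ Y = Y ∧ qmap σ Y = Y ∧ qmap ι Y = Y ∧
      nrd Y * (nrd X * ρ (nrd X) * ρ (ρ (nrd X))) = 1 ∧
      κ * ρ n * ρ (ρ n) * ρ (nrd X) = n ∧
      (∀ u, A u = n • (X * u * qmap ρ (qmap ρ (star X)))) ∧
      ∀ u, B u = (n * nrd X * ρ (ρ (nrd X))) • (Y * u * qmap ρ (star X)) := by
  have h0 : α ≠ 0 := by
    rintro rfl
    rw [mul_zero] at hα
    exact (up E a).ne_zero hα.symm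
  have ht0 : t ≠ 0 := by
    rintro rfl
    rw [zero_mul, zero_mul] at ht
    exact zero_ne_one ht
  have hmn : nrd (mq a b α t) ≠ 0 := by rw [nrd_mq h2 hα]; exact ht0
  have hR3 : ∀ x : Qt (up E a) (up E b), qmap ρ (qmap ρ (qmap ρ x)) = x := by
    intro x
    apply QuaternionAlgebra.ext
    · exact hρ3 _
    · exact hρ3 _
    · exact hρ3 _
    · exact hρ3 _
  have hIR : ∀ x : Qt (up E a) (up E b), qmap ι (qmap ρ x) = qmap ρ (qmap ρ (qmap ι x)) := by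
    intro x
    apply QuaternionAlgebra.ext
    · exact hιρ _
    · exact hιρ _
    · exact hιρ _
    · exact hιρ _
  have hI1 : qmap ι (1 : Qt (up E a) (up E b)) = 1 := qmap_one ι
  obtain ⟨X, n, hX0, hn0, hσn, hXm, hkn, hAX⟩ := shape h2 hρ3 hσ2 hcomm hα hρα hσα hσt ht
    A hA hJ
  -- normalisation
  obtain ⟨d, hd0, hσd, hXd⟩ := norm1 h2 hρ3 hcomm hρα hιρ hι2 hισ hια hιt hιne hmn hX0 hn0 hXm
    (A := A) hAX hIA
  have hρd : ρ d ≠ 0 := (map_ne_zero ρ).mpr hd0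
  have hρρd : ρ (ρ d) ≠ 0 := (map_ne_zero ρ).mpr hρd
  obtain ⟨X', hX'⟩ : ∃ X', X' = d • X := ⟨_, rfl⟩
  obtain ⟨n', hn'⟩ : ∃ n', n' = n * (d * ρ (ρ d))⁻¹ := ⟨_, rfl⟩
  rw [← hX'] at hXd
  have hn'0 : n' ≠ 0 := by
    rw [hn']
    exact mul_ne_zero hn0 (inv_ne_zero (mul_ne_zero hd0 hρρd))
  have hX'0 : nrd X' ≠ 0 := by
    rw [hX', nrd_smul_q]
    exact mul_ne_zero (pow_ne_zero 2 hd0) hX0
  have hσn' : σ n' = n' := by
    rw [hn', map_mul, map_inv₀, map_mul, hcomm, hcomm, hσn, hσd]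
  have hXm' : X' * mq a b α t = mq a b α t * qmap σ X' := by
    rw [hX', qmap_smul, hσd, smul_mul_assoc, mul_smul_comm, hXm]
  have hAX' : ∀ u, A u = n' • (X' * u * qmap ρ (qmap ρ (star X'))) := by
    intro u
    rw [hAX, hX', star_smul_q, qmap_smul, qmap_smul, smul_mul_assoc, smul_mul_assoc,
      mul_smul_comm, smul_smul, smul_smul, hn']
    congr 1
    field_simp
  have hkn' : κ * ρ n' * ρ (ρ n') * ρ (nrd X') = n' := kap_rel hρ3 A hA hX'0 hAX'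
  have hIX : qmap ι X' = qmap ρ (qmap ρ X') := by
    have h1 := congrArg (fun x => qmap ρ (qmap ρ x)) hXd
    simp only [hR3] at h1
    exact h1
  have hIsX : qmap ι (star X') = qmap ρ (qmap ρ (star X')) := by
    rw [qmap_star, hIX, ← qmap_star, ← qmap_star]
  have hιn : ι n' = n' := by
    have h1 := hIA 1
    have e2 : qmap ι (qmap ρ (qmap ρ X')) = X' := by
      rw [hIR, hIR, hR3]
      exact hXd
    rw [star_one, hI1, hAX', mul_one, star_smul_q, qmap_smul, star_mul, ← qmap_star,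
      ← qmap_star, star_star, qmap_mul, e2, hIsX] at h1
    exact (smul_cancel_q (by
      rw [nrd_mul, nrd_qmap, nrd_qmap, nrd_star_q]
      exact mul_ne_zero hX'0 ((map_ne_zero ρ).mpr ((map_ne_zero ρ).mpr hX'0))) h1).symm
  obtain ⟨Y, hRY, hSY, hYn, hBY⟩ := shape2 h2 hρ3 hcomm hα hρα hσα hσt ht hX'0 hn'0 hσn' hXm'
    hkn' (A := A.toLinearMap) (B := B) hAX' hB hJ2 hC
  have hιν : ι (nrd X') = ρ (ρ (nrd X')) := by
    rw [← nrd_qmap, hIX, nrd_qmap, nrd_qmap]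
  have hιν2 : ι (ρ (ρ (nrd X'))) = nrd X' := by
    rw [← hιν, hι2]
  have hιY : qmap ι Y = Y := by
    have h1 := hIB 1
    have e1 : qmap ι (qmap ρ (star X')) = qmap ρ (star X') := by
      rw [hIR, hIsX, hR3]
    have e3 : ι (n' * nrd X' * ρ (ρ (nrd X'))) = n' * nrd X' * ρ (ρ (nrd X')) := by
      rw [map_mul, map_mul, hιn, hιν, hιν2]
      ring
    rw [hI1, hBY, mul_one, qmap_smul, e3, qmap_mul, e1] at h1
    have h3 : n' * nrd X' * ρ (ρ (nrd X')) ≠ 0 :=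
      mul_ne_zero (mul_ne_zero hn'0 hX'0) ((map_ne_zero ρ).mpr ((map_ne_zero ρ).mpr hX'0))
    have h4 := congrArg (fun x => (n' * nrd X' * ρ (ρ (nrd X')))⁻¹ • x) h1
    simp only [inv_smul_smul₀ h3] at h4
    have h5 : nrd (qmap ρ (star X')) ≠ 0 := by
      rw [nrd_qmap, nrd_star_q]
      exact (map_ne_zero ρ).mpr hX'0
    calc qmap ι Y = qmap ι Y * (qmap ρ (star X') * qi (qmap ρ (star X'))) := by
          rw [mul_qi h5, mul_one]
      _ = qmap ι Y * qmap ρ (star X') * qi (qmap ρ (star X')) := by rw [mul_assoc]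
      _ = Y * qmap ρ (star X') * qi (qmap ρ (star X')) := by rw [← h4]
      _ = Y := by rw [mul_assoc, mul_qi h5, mul_one]
  exact ⟨X', Y, n', hX'0, hn'0, hσn', hιn, hXm'.symm, hXd, hRY, hSY, hιY, hYn, hkn', hAX', hBY⟩

/-- The shape of the similitudes which commute with the standard involution, `J` and `I`. -/
theorem shapeI [NeZero (2 : E)] (hρ3 : ∀ x, ρ (ρ (ρ x)) = x) (hσ2 : ∀ x, σ (σ x) = x)
    (hcomm : ∀ x, σ (ρ x) = ρ (σ x)) (hα : α * α = algebraMap k E a) (hρα : ρ α = α)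
    (hσα : σ α = -α) (hσt : σ t = t) (ht : t * ρ t * ρ (ρ t) = 1)
    (hιρ : ∀ x, ι (ρ x) = ρ (ρ (ι x))) (hι2 : ∀ x, ι (ι x) = x)
    (hισ : ∀ x, ι (σ x) = σ (ι x)) (hια : ι α = α) (hιt : ι t = ρ (ρ t))
    (hιne : ∃ y, σ y = y ∧ ι y ≠ y)
    (Z : OctL E a b c ≃ₗ[E] OctL E a b c) (hZ : ∀ x, Z (tt x) = tt (Z x))
    (hκ : ∀ x y, Z (tri ρ x y) = κ • tri ρ (Z x) (Z y))
    (hJf : ∀ y, Z ⟨mq a b α t * qmap σ y * mq a b α (t * ρ t), 0⟩ =
      ⟨mq a b α t * qmap σ (Z ⟨y, 0⟩).fst * mq a b α (t * ρ t), 0⟩)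
    (hJs : ∀ y, Z ⟨0, qmap σ y * (mq a b α t * star (mq a b α (t * ρ t)))⟩ =
      ⟨0, qmap σ (Z ⟨0, y⟩).snd * (mq a b α t * star (mq a b α (t * ρ t)))⟩)
    (hI : ∀ x, Z (star (omap ι x)) = star (omap ι (Z x))) :
    ∃ (X Y : Qt (up E a) (up E b)) (n : E), nrd X ≠ 0 ∧ n ≠ 0 ∧ σ n = n ∧ ι n = n ∧
      mq a b α t * qmap σ X = X * mq a b α t ∧ qmap ρ (qmap ι X) = X ∧
      qmap ρ Y = Y ∧ qmap σ Y = Y ∧ qmap ι Y = Y ∧
      nrd Y * (nrd X * ρ (nrd X) * ρ (ρ (nrd X))) = 1 ∧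
      κ * ρ n * ρ (ρ n) * ρ (nrd X) = n ∧
      ∀ y, Z y = ⟨n • (X * y.fst * qmap ρ (qmap ρ (star X))),
        (n * nrd X * ρ (ρ (nrd X))) • (Y * y.snd * qmap ρ (star X))⟩ := by
  have hR3 : ∀ x : Qt (up E a) (up E b), qmap ρ (qmap ρ (qmap ρ x)) = x := by
    intro x
    apply QuaternionAlgebra.ext
    · exact hρ3 _
    · exact hρ3 _
    · exact hρ3 _
    · exact hρ3 _
  -- the two components
  have hA : ∀ u v, fstE Z hZ (u * v) = κ •
      (qmap ρ (star (fstE Z hZ (star (qmap ρ (qmap ρ u))))) *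
      qmap ρ (qmap ρ (star (fstE Z hZ (star (qmap ρ v)))))) := by
    intro u v
    have h1 := hκ ⟨star (qmap ρ (qmap ρ u)), 0⟩ ⟨star (qmap ρ v), 0⟩
    rw [tri_ff, star_star, star_star, hR3, hR3, fstE_apply Z hZ, fstE_apply Z hZ, fstE_apply Z hZ,
      tri_ff] at h1
    exact congrArg Oct.fst h1
  have hJ : ∀ y, fstE Z hZ (mq a b α t * qmap σ y * mq a b α (t * ρ t)) =
      mq a b α t * qmap σ (fstE Z hZ y) * mq a b α (t * ρ t) := fun y =>
    congrArg Oct.fst (hJf y)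
  have hIA : ∀ u, fstE Z hZ (qmap ι (star u)) = qmap ι (star (fstE Z hZ u)) := by
    intro u
    have h1 := hI ⟨u, 0⟩
    have h3 : star (omap ι (⟨u, 0⟩ : OctL E a b c)) = ⟨qmap ι (star u), 0⟩ := by
      apply Oct.ext
      · exact (qmap_star ι u).symm
      · change -qmap ι (0 : Qt (up E a) (up E b)) = 0
        rw [qmap_zero, neg_zero]
    have h4 := congrArg Oct.fst h1
    rw [h3] at h4
    have h5 : (star (omap ι (Z ⟨u, 0⟩))).fst = qmap ι (star (fstE Z hZ u)) :=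
      (qmap_star ι _).symm
    rw [h5] at h4
    exact h4
  have hIB : ∀ w, sndE Z (qmap ι w) = qmap ι (sndE Z w) := by
    intro w
    have h1 := hI ⟨0, w⟩
    have h3 : star (omap ι (⟨0, w⟩ : OctL E a b c)) = ⟨0, -qmap ι w⟩ := by
      apply Oct.ext
      · change star (qmap ι (0 : Qt (up E a) (up E b))) = 0
        rw [qmap_zero, star_zero]
      · rfl
    have h4 := congrArg Oct.snd h1
    rw [h3] at h4
    have h5 : sndE Z (-qmap ι w) = -qmap ι (sndE Z w) := h4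
    rw [map_neg] at h5
    exact neg_injective h5
  have hB : ∀ u w, sndE Z (qmap ρ (qmap ρ w) * qmap ρ (star u)) =
      κ • (qmap ρ (qmap ρ (sndE Z w)) * qmap ρ (star (fstE Z hZ u))) := by
    intro u w
    have h1 := congrArg Oct.snd (hκ ⟨u, 0⟩ ⟨0, w⟩)
    rw [tri_fs, fstE_apply Z hZ, sndE_apply Z hZ, sndE_apply Z hZ, tri_fs] at h1
    have h3 : -(sndE Z (qmap ρ (qmap ρ w) * qmap ρ (star u))) =
        κ • (-(qmap ρ (qmap ρ (sndE Z w)) * qmap ρ (star (fstE Z hZ u)))) := by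
      rw [← map_neg]
      exact h1
    rw [smul_neg] at h3
    exact neg_injective h3
  have hJ2 : ∀ y, sndE Z (qmap σ y * (mq a b α t * star (mq a b α (t * ρ t)))) =
      qmap σ (sndE Z y) * (mq a b α t * star (mq a b α (t * ρ t))) := fun y =>
    congrArg Oct.snd (hJs y)
  have hC : fstE Z hZ 1 = κ •
      (star (qmap ρ (qmap ρ (sndE Z 1))) * qmap ρ (sndE Z 1)) := by
    have h1 := congrArg Oct.fst (hκ ⟨0, 1⟩ ⟨0, 1⟩)
    have h3 : tri ρ (⟨0, 1⟩ : OctL E a b c) ⟨0, 1⟩ = ((up E c : Eˣ) : E) • ⟨1, 0⟩ := by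
      rw [tri_ss, qmap_one, qmap_one, star_one, mul_one]
      exact Oct.ext rfl (smul_zero _).symm
    rw [h3, map_smul, fstE_apply Z hZ, sndE_apply Z hZ, tri_ss] at h1
    have h4 : ((up E c : Eˣ) : E) • fstE Z hZ 1 = κ •
      (((up E c : Eˣ) : E) • (star (qmap ρ (qmap ρ (sndE Z 1))) * qmap ρ (sndE Z 1))) := h1
    rw [smul_comm] at h4
    have h5 := congrArg (fun x => ((up E c : Eˣ) : E)⁻¹ • x) h4
    simp only [inv_smul_smul₀ (up E c).ne_zero] at h5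
    exact h5
  obtain ⟨X, Y, n, g1, g2, g3, g4, g5, g6, g7, g8, g9, g10, g11, g12, g13⟩ :=
    shapeAB (NeZero.ne 2) hρ3 hσ2 hcomm hα hρα hσα hσt ht hιρ hι2 hισ hια hιt hιne (fstE Z hZ)
      (sndE Z) hA hJ hB hJ2 hC hIA hIB
  refine ⟨X, Y, n, g1, g2, g3, g4, g5, g6, g7, g8, g9, g10, g11, fun y => ?_⟩
  have h1 : y = ⟨y.fst, 0⟩ + ⟨0, y.snd⟩ := by
    apply Oct.ext
    · exact (add_zero _).symm
    · exact (zero_add _).symm
  nth_rewrite 1 [h1]
  rw [map_add, fstE_apply Z hZ, sndE_apply Z hZ, g12, g13]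
  apply Oct.ext
  · exact add_zero _
  · exact zero_add _

end main

end Vale.Agent.P011.D4I.H547
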