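import Vale.Agent.P011.D4I.H657.KCrL

/-!
Block D4I: the change of the quadratic field: the new parameters satisfy the hypotheses of the
model.
-/

set_option linter.unusedSectionVars false

open NumberField

namespace Vale.Agent.P011.D4I

open Vale.Agent.P011.MPQ Vale.Agent.P011.D4 Vale.Agent.P011.D4.Oct Vale.Agent.P011.E6
open Vale.Agent.P011.D4T

section main

variable {k L E : Type} [Field k] [NumberField k] [Field L] [NumberField L] [Field E]
  [Algebra k L] [Algebra k E] [Algebra L E] [IsScalarTower k L E] {ρ σ ι : E ≃ₐ[k] E} {α : E} {a b c : kˣ} {q : Lˣ}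
  (H : HyI ρ σ ι α a b c q)
  {a1 : kˣ} {E1 O : Type} [Field E1] [Field O] [NumberField O] [Algebra k E1] [Algebra L E1]
  [Algebra k O] [Algebra L O] [Algebra E O] [Algebra E1 O] [IsScalarTower k L O]
  [IsScalarTower L E O] [IsScalarTower L E1 O] [IsScalarTower k E O] [IsScalarTower k E1 O]
  {ρ1 σ1 ι1 : E1 ≃ₐ[k] E1} {α1 : E1} {ρ' σ' τ' ι' : O ≃ₐ[k] O}
  (T : TowI (L := L) ρ σ ι (a1 : k) ρ1 σ1 ι1 α1 ρ' σ' τ' ι')

include H T

/-- **KCr**: the new parameters satisfy the hypotheses of the model. -/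
theorem hy_newI (hDs : ∀ τ : k →+* ℝ, τ (a1 : k) < 0 → τ (a : k) < 0)
    (hDw : ∃ w : Qt a b, w.re = 0 ∧ w * w = (a1 : k) • 1)
    {b1 c1 : kˣ} {q1 : O} (hN : H67.N3 ρ' q1 = 1) (hσq1 : σ' q1 = q1) (hτq1 : τ' q1 = q1)
    (hιq1 : ι' q1 = ρ' (ρ' q1)) (u : OctL O a1 b1 c1 ≃ₗ[O] OctL O a b c) {f s t : O}
    (hbil : ∀ x y, bil (u x) (u y) = f * bil x y)
    (hJ : ∀ x, Jq σ' (algebraMap E O α) (algebraMap L O q) (ρ' (algebraMap L O q)) (u x) =
      s • u (omap σ' x))
    (hT : ∀ x, omap τ' (u x) = t • u (Jq τ' (algebraMap E1 O α1) q1 (ρ' q1) x))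
    (hI : ∀ x, omap ι' (star (u x)) = u (omap ι' (star x))) :
    ∃ qL : Lˣ, algebraMap L O (qL : L) = q1 ∧ HyI ρ1 σ1 ι1 α1 a1 b1 c1 qL := by
  have h2 : NeZero (2 : O) := ⟨two_ne_zero⟩
  obtain ⟨y, hy⟩ := T.fixτ q1 hτq1
  obtain ⟨r, hr'⟩ := H.fixL y (by
    apply (algebraMap E O).injective
    rw [← T.σE, hy, hσq1]) (by
    apply (algebraMap E O).injective
    rw [← T.ιE, ← T.ρE, ← T.ρE, hy, hιq1])
  have hr : algebraMap L O r = q1 := by
    rw [IsScalarTower.algebraMap_apply L E O, hr', hy]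
  have hr0 : r ≠ 0 := by
    rintro rfl
    rw [map_zero] at hr
    rw [← hr, H67.N3, zero_mul, zero_mul] at hN
    exact zero_ne_one hN
  have hE1 : algebraMap E1 O (algebraMap L E1 r) = q1 := by
    rw [← IsScalarTower.algebraMap_apply, hr]
  have signs : ∀ w : L →+* ℝ, w (algebraMap k L a1) < 0 → w (algebraMap k L b1) < 0 ∧
      w (algebraMap k L c1) < 0 ∧ 0 < w r := fun w hw =>
    signsL H T hDs hN hσq1 hr u hbil hJ hT hI hw
  have hdiv1 : Division a1 b1 c1 := by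
    obtain ⟨τ, ha, hb, hc⟩ := exists_dfn H.hdiv
    have h1 : τ (a1 : k) < 0 := by
      obtain ⟨w, hw0, hw⟩ := hDw
      have e := congrArg QuaternionAlgebra.re hw
      simp only [QuaternionAlgebra.re_mul, hw0, QuaternionAlgebra.re_smul,
        QuaternionAlgebra.re_one, smul_eq_mul, mul_one] at e
      have e' := congrArg τ e
      simp only [map_add, map_sub, map_mul, map_zero] at e'
      have hne : τ (a1 : k) ≠ 0 := (map_ne_zero τ).mpr a1.ne_zero
      refine lt_of_le_of_ne ?_ hne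
      have t1 : 0 ≤ (-τ a) * (τ w.imI * τ w.imI) :=
        mul_nonneg (neg_pos.2 ha).le (mul_self_nonneg _)
      have t2 : 0 ≤ (-τ b) * (τ w.imJ * τ w.imJ) :=
        mul_nonneg (neg_pos.2 hb).le (mul_self_nonneg _)
      have t3 : 0 ≤ (-τ a) * (-τ b) * (τ w.imK * τ w.imK) :=
        mul_nonneg (mul_pos (neg_pos.2 ha) (neg_pos.2 hb)).le (mul_self_nonneg _)
      linarith
    obtain ⟨w, rfl⟩ := E6I.exists_real_over (L := L) H.h3 τ
    obtain ⟨s1, s2, -⟩ := signs w h1
    exact division_of_neg (w.comp (algebraMap k L)) h1 s1 s2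
  exact ⟨Units.mk0 r hr0, hr,
    { h3 := H.h3
      ρL := T.ρ1L
      ρ3 := T.ρ13
      σ2 := T.σ12
      ι2 := T.ι12
      comm := T.comm1
      σι := T.σι1
      ιρ := T.ιρ1
      σL := T.σ1L
      ιL := T.ι1L
      fixL := T.fixL1
      fixk := T.fixk1
      α2 := T.α12
      ρα := T.ρα1
      σα := T.σα1
      ια := T.ια1
      hq := by
        apply (algebraMap E1 O).injective
        change algebraMap E1 O (algebraMap L E1 r * ρ1 (algebraMap L E1 r) *
          ρ1 (ρ1 (algebraMap L E1 r))) = _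
        rw [map_mul, map_mul, ← T.ρE1, ← T.ρE1, ← T.ρE1, hE1, map_one]
        exact hN
      hdiv := hdiv1
      hre := fun τ hτ => by
        obtain ⟨w, hw⟩ := E6I.exists_real_over (L := L) H.h3 τ
        obtain ⟨s1, s2, -⟩ := signs w (by rw [← hw] at hτ; exact hτ)
        refine ⟨by rw [← hw]; exact s1, by rw [← hw]; exact s2, fun w' hw' => ?_⟩
        exact (signs w' (by rw [← hw'] at hτ; exact hτ)).2.2 }⟩

end main

end Vale.Agent.P011.D4I
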