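import Vale.Agent.P011.D4I.H547.PartB
import Vale.Agent.P011.D4I.H63.Kcx
import Vale.Agent.P011.D4I.H659.Gen
import Vale.Agent.P011.D4I.H657.Tor

/-!
Block D4I: the parts of the same class in the centralisers of two involutions.
-/

open NumberField Topology

set_option linter.unusedSectionVars false

namespace Vale.Agent.P011.D4I

open Vale.Agent.P011.MPQ Vale.Agent.P011.D4 Vale.Agent.P011.D4.Oct Vale.Agent.P011.E6
open Vale.Agent.P011.D4T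

variable {k L E : Type} [Field k] [NumberField k] [Field L] [NumberField L] [Field E]
  [Algebra k L] [Algebra k E] [Algebra L E]
  [IsScalarTower k L E] [NeZero (2 : E)] {ρ σ ι : E ≃ₐ[k] E} {α : E}
  {a b c : kˣ} {q : Lˣ} (H : HyI ρ σ ι α a b c q)

include H

/-- **The parts**, from `stab_N`. -/
theorem part_of
    (hstab : ∀ (E1 : Type) [Field E1] [Algebra k E1] [Algebra L E1] [IsScalarTower k L E1]
      [NeZero (2 : E1)] (ρ1 σ1 ι1 : E1 ≃ₐ[k] E1) (α1 : E1) (a1 b1 c1 : kˣ) (q1 : Lˣ),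
      HyI ρ1 σ1 ι1 α1 a1 b1 c1 q1 → HOdd a1 q1 → ∀ {b' c' : kˣ} {j l : Oct a1 b1 c1}
      (h : Trip a1 b' c' gi j l) {z : ATI ρ1 σ1 ι1 α1 a1 b1 c1 q1}, z ∈ stabI ρ1 σ1 ι1 α1 q1 h →
      ∀ {κ : Lˣ}, IsKapI ρ1 z.1 κ → κ ∈ SqL k L → IsNI ρ1 σ1 ι1 α1 a1 b1 c1 q1 z)
    (ho : HOdd a q) {b' c' : kˣ} {j l : Oct a b c} (h : Trip a b' c' gi j l) {D : k}
    (hD : GoodD a b q D) (hD' : GoodD a b' q D) (hns : ∀ e : E, e * e ≠ algebraMap k E D)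
    {x y : L} (κ : Lˣ)
    (hκ : (κ : L) = x ^ 2 - algebraMap k L D * y ^ 2) :
    ∃ w w' : ATI ρ σ ι α a b c q, w ∈ stab0I ρ σ ι α a b c q ∧ w' ∈ stabI ρ σ ι α q h ∧
      IsKapI ρ w.1 κ ∧ IsKapI ρ w'.1 κ ∧ IsNI ρ σ ι α a b c q (w * w'⁻¹) := by
  obtain ⟨hD0, ⟨w0, hw0, hw0'⟩, hwq, ⟨w1, hw1, hw1'⟩, hsgn⟩ := hD
  obtain ⟨-, ⟨w2, hw2, hw2'⟩, -, -, -⟩ := hD'
  obtain ⟨E1, O, _, _, _, _, _, _, _, _, _, _, _, _, _, _, _, _, ρ1, σ1, ι1, α1, ρ', σ', τ', ι',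
    a1, b1, c1, q1, u, φ, X⟩ := exists_kcxI H hD0 hsgn hns hw0 hw0' hw1 hw1' hwq
  exact Part.core H X.H1 X.K X.T.σ2 X.eqv X.kp X.st0 (fun v hv hI => gen1 X.H1 hv hI)
    (fun h z hz hk => hstab E1 ρ1 σ1 ι1 α1 a1 b1 c1 q1 X.H1 (X.ho ho) h hz (κ := 1)
      (by rw [← hk]; exact isKapI_kapI _) (Subgroup.one_mem _))
    (fun e he hι => exists_tor X.H1 e he hι) h X.ha1 hw2 hw2' κ hκ

end Vale.Agent.P011.D4I
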